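import Vale.Agent.P235.LL.H958.Base

/-! P235, LL (helper958): **ALL** = section (10): every pair which starts far from the boundary is
separated. -/

namespace Vale.Agent.P235.LL.H958

open Vale.Agent.P235 Finset

theorem rowAll : RowAll := by
  intro C' C c c1 c2 hC' hC hc hc1 hc14 hc2
  have hC'0 : 0 < C' := by linarith
  set c3 : ℝ := min (c1 / 2) (c1 * c2 / (64 * C')) with hc3def
  have hc3 : 0 < c3 := lt_min (by linarith) (by positivity)
  have hc3a : c3 ≤ c1 / 2 := min_le_left _ _
  have hc3b : c3 ≤ c1 * c2 / (64 * C') := min_le_right _ _
  refine ⟨c3, hc3, ?_⟩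
  intro V _ G ℓ K hcon hℓ hK S st mv hM H n
  have hK0 : 0 < K := by linarith
  have hd := pathDist_isMet hcon hℓ
  have hl1 := sig_l1 hM
  induction n with
  | zero =>
    intro D _ hcard x hx
    have h0 : D.U = ∅ := (Set.ncard_eq_zero (Set.toFinite _)).1 (Nat.le_zero.1 hcard)
    rw [h0] at hx
    exact absurd hx (Set.notMem_empty x)
  | succ n ih =>
    intro D hD hcard x hx y hy hfar
    set δ := pathDist G ℓ x y with hδ
    have hδ0 : 0 ≤ δ := hd.nonneg x y
    set T : ℝ := c3 * δ / K with hT
    have key : ∀ k, T ≤ ∑ j ∈ range (D.Jm k), ((15 / 16) ^ j * st D k j x y +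
        D.mass k j * (mv D k j x y +
          ∑ W ∈ Sys.comps G D k j, S.sig st mv n (S.chS D k j W) x y)) := by
      intro k
      set a : ℕ → ℝ := fun j => dto G ℓ (D.vis k j) x + dto G ℓ (D.vis k j) y with ha
      have hsig0 : ∀ j, ∀ W ∈ Sys.comps G D k j, 0 ≤ S.sig st mv n (S.chS D k j W) x y :=
        fun j W hW => (hl1 n _ (good_chS hD hW).1).nonneg x y
      have hmv0 : ∀ j, 0 ≤ mv D k j x y := fun j => (hM.mv D hD k j).l1.nonneg x y
      have hG1 : ∀ j, ∀ W ∈ Sys.comps G D k j, S.sig st mv n (S.chS D k j W) x y ≤
          mv D k j x y + ∑ W ∈ Sys.comps G D k j, S.sig st mv n (S.chS D k j W) x y := by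
        intro j W hW
        have := Finset.single_le_sum (f := fun W => S.sig st mv n (S.chS D k j W) x y)
          (hsig0 j) hW
        linarith [hmv0 j]
      have hcomp : ∀ j z, z ∉ D.vis k (j + 1) →
          compSet G (D.vis k (j + 1)) z ∈ Sys.comps G D k j := fun j z hz =>
        mem_comps.2 ⟨z, hz, rfl⟩
      have hcardc : ∀ j z, z ∉ D.vis k (j + 1) → (S.ch D k j z).U.ncard ≤ n := fun j z hz => by
        have := card_lt hD k j hz
        omega
      have hUz : ∀ j z, z ∉ D.vis k (j + 1) →
          (S.ch D k j z).U = compSet G (D.vis k (j + 1)) z := fun j z hz => (chS_spec hD k j hz).2.1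
      have hdto : ∀ j z, z ∉ D.vis k (j + 1) →
          dto G ℓ (S.ch D k j z).Uᶜ z = dto G ℓ (D.vis k (j + 1)) z := by
        intro j z hz
        rw [hUz j z hz]
        exact dto_comp hcon hℓ (vis_nonempty (S.dom D hD) k (j + 1)) hz
      set ev : ℕ → Prop := fun j => x ∈ D.vis k (j + 1) ∨ y ∈ D.vis k (j + 1) ∨
        compSet G (D.vis k (j + 1)) x ≠ compSet G (D.vis k (j + 1)) y ∨ a (j + 1) < c1 * δ with hev
      have hsame : ∀ j, y ∉ D.vis k (j + 1) →
          compSet G (D.vis k (j + 1)) x = compSet G (D.vis k (j + 1)) y →
          S.ch D k j x = S.ch D k j y := by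
        intro j _ h
        unfold Sys.ch
        rw [h]
      have hmain := all_mass (Jm_spec D k).1 (T := T) (fun j => st D k j x y)
        (fun j => mv D k j x y + ∑ W ∈ Sys.comps G D k j, S.sig st mv n (S.chS D k j W) x y)
        (fun j _ => (hM.st D hD k j).l1.nonneg x y)
        (fun j _ => add_nonneg (hmv0 j) (Finset.sum_nonneg (hsig0 j))) ev ?_ ?_
      · exact hmain
      · -- no event so far
        intro j _ hne
        have hj := hne j le_rfl
        simp only [hev, not_or, not_not, not_lt] at hj
        obtain ⟨h1, h2, h3, h4⟩ := hj
        refine le_trans ?_ (hG1 j _ (hcomp j x h1))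
        show T ≤ S.sig st mv n (S.ch D k j x) x y
        have hyU : y ∈ (S.ch D k j x).U := by
          rw [hUz j x h1, h3]; exact self_mem_compSet h2
        have hxU : x ∈ (S.ch D k j x).U := by
          rw [hUz j x h1]; exact self_mem_compSet h1
        have h5 := ih (S.ch D k j x) (chS_spec hD k j h1).1 (hcardc j x h1) x hxU y hyU (by
          rw [hdto j x h1, hsame j h2 h3, hdto j y h2]; exact h4)
        rw [hT, div_le_iff₀ hK0, mul_comm _ K]
        exact h5
      · -- the first event
        intro j _ he hne
        have haj : c1 * δ ≤ a j := by
          rcases j with _ | i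
          · simp only [ha, vis_zero]; exact hfar
          · have := hne i (Nat.lt_succ_self i)
            simp only [hev, not_or, not_not, not_lt] at this
            exact this.2.2.2
        by_cases hA : c1 / (4 * C' * K) * δ ≤ a (j + 1)
        · right
          have hgain : c2 * a (j + 1) ≤ mv D k j x y +
              ∑ W ∈ Sys.comps G D k j, S.sig st mv n (S.chS D k j W) x y := by
            by_cases h1 : x ∈ D.vis k (j + 1)
            · have e1 : dto G ℓ (D.vis k (j + 1)) x = 0 := dto_self hcon hℓ h1
              by_cases h2 : y ∈ D.vis k (j + 1)
              · have e2 : dto G ℓ (D.vis k (j + 1)) y = 0 := dto_self hcon hℓ h2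
                simp only [ha, e1, e2, add_zero, mul_zero]
                exact add_nonneg (hmv0 j) (Finset.sum_nonneg (hsig0 j))
              · refine le_trans ?_ (hG1 j _ (hcomp j y h2))
                show c2 * a (j + 1) ≤ S.sig st mv n (S.ch D k j y) x y
                have hyU : y ∈ (S.ch D k j y).U := by
                  rw [hUz j y h2]; exact self_mem_compSet h2
                have hxU : x ∉ (S.ch D k j y).U := by
                  rw [hUz j y h2]; exact fun h => compSet_out h h1
                have h5 := (H n (S.ch D k j y) (chS_spec hD k j h2).1 (hcardc j y h2)).1 y hyU x hxU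
                rw [hdto j y h2, (hl1 n _ (chS_spec hD k j h2).1).symm y x] at h5
                simp only [ha, e1, zero_add]
                exact h5
            · have hxU : x ∈ (S.ch D k j x).U := by
                rw [hUz j x h1]; exact self_mem_compSet h1
              by_cases h2 : y ∈ D.vis k (j + 1)
              · have e2 : dto G ℓ (D.vis k (j + 1)) y = 0 := dto_self hcon hℓ h2
                refine le_trans ?_ (hG1 j _ (hcomp j x h1))
                show c2 * a (j + 1) ≤ S.sig st mv n (S.ch D k j x) x y
                have hyU : y ∉ (S.ch D k j x).U := by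
                  rw [hUz j x h1]; exact fun h => compSet_out h h2
                have h5 := (H n (S.ch D k j x) (chS_spec hD k j h1).1 (hcardc j x h1)).1 x hxU y hyU
                rw [hdto j x h1] at h5
                simp only [ha, e2, add_zero]
                exact h5
              · by_cases h3 : compSet G (D.vis k (j + 1)) x = compSet G (D.vis k (j + 1)) y
                · have h4 : a (j + 1) < c1 * δ := by
                    simp only [hev] at he
                    rcases he with he | he | he | he
                    · exact absurd he h1
                    · exact absurd he h2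
                    · exact absurd h3 he
                    · exact he
                  refine le_trans ?_ (hG1 j _ (hcomp j x h1))
                  show c2 * a (j + 1) ≤ S.sig st mv n (S.ch D k j x) x y
                  have hyU : y ∈ (S.ch D k j x).U := by
                    rw [hUz j x h1, h3]; exact self_mem_compSet h2
                  have e3 : dto G ℓ (S.ch D k j x).Uᶜ y = dto G ℓ (D.vis k (j + 1)) y := by
                    rw [hsame j h2 h3, hdto j y h2]
                  have h5 := (H n (S.ch D k j x) (chS_spec hD k j h1).1 (hcardc j x h1)).2 x hxU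
                    y hyU (by rw [hdto j x h1, e3]; exact h4.le)
                  rw [hdto j x h1, e3] at h5
                  exact h5
                · have hyUx : y ∉ (S.ch D k j x).U := by
                    rw [hUz j x h1]; exact fun h => h3 (compSet_congr h).symm
                  have hyU : y ∈ (S.ch D k j y).U := by
                    rw [hUz j y h2]; exact self_mem_compSet h2
                  have hxUy : x ∉ (S.ch D k j y).U := by
                    rw [hUz j y h2]; exact fun h => h3 (compSet_congr h)
                  have h5 := (H n (S.ch D k j x) (chS_spec hD k j h1).1 (hcardc j x h1)).1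
                    x hxU y hyUx
                  have h6 := (H n (S.ch D k j y) (chS_spec hD k j h2).1 (hcardc j y h2)).1
                    y hyU x hxUy
                  rw [hdto j x h1] at h5
                  rw [hdto j y h2, (hl1 n _ (chS_spec hD k j h2).1).symm y x] at h6
                  have h7 : ∑ W ∈ ({compSet G (D.vis k (j + 1)) x,
                      compSet G (D.vis k (j + 1)) y} : Finset (Set V)),
                      S.sig st mv n (S.chS D k j W) x y ≤
                      ∑ W ∈ Sys.comps G D k j, S.sig st mv n (S.chS D k j W) x y := by
                    refine Finset.sum_le_sum_of_subset_of_nonneg ?_ fun W hW _ => hsig0 j W hW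
                    intro W hW
                    rw [Finset.mem_insert, Finset.mem_singleton] at hW
                    rcases hW with rfl | rfl
                    · exact hcomp j x h1
                    · exact hcomp j y h2
                  rw [Finset.sum_pair h3] at h7
                  have h8 : c2 * a (j + 1) = c2 * dto G ℓ (D.vis k (j + 1)) x +
                      c2 * dto G ℓ (D.vis k (j + 1)) y := by simp only [ha]; ring
                  rw [h8]
                  have h9 := hmv0 j
                  unfold Sys.ch at h5 h6
                  linarith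
          have h1 : T ≤ 1 / 16 * (c2 * (c1 / (4 * C' * K) * δ)) := by
            have e1 : 1 / 16 * (c2 * (c1 / (4 * C' * K) * δ)) = c1 * c2 / (64 * C') * δ / K := by
              field_simp
              ring
            rw [e1, hT]
            exact div_le_div_of_nonneg_right (mul_le_mul_of_nonneg_right hc3b hδ0) hK0.le
          refine h1.trans (mul_le_mul_of_nonneg_left ?_ (by norm_num))
          exact (mul_le_mul_of_nonneg_left hA hc2.le).trans hgain
        · left
          rw [not_le] at hA
          have hg := (hM.st D hD k j).gain x y
          have h1 : c1 * δ ≤ min δ (a j) := le_min (by nlinarith) haj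
          have h2 : (1 + C' * K) * a (j + 1) ≤ c1 / 2 * δ := by
            have h3 : 1 + C' * K ≤ 2 * (C' * K) := by nlinarith
            have h4 : 0 ≤ a (j + 1) := add_nonneg (dto_nonneg hℓ _ _) (dto_nonneg hℓ _ _)
            calc (1 + C' * K) * a (j + 1) ≤ 2 * (C' * K) * a (j + 1) :=
                  mul_le_mul_of_nonneg_right h3 h4
              _ ≤ 2 * (C' * K) * (c1 / (4 * C' * K) * δ) :=
                  mul_le_mul_of_nonneg_left hA.le (by positivity)
              _ = c1 / 2 * δ := by field_simp; ring
          have h3 : c1 / 2 * δ ≤ K * st D k j x y := by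
            have : min δ (a j) ≤ K * st D k j x y + (1 + C' * K) * a (j + 1) := hg
            linarith
          rw [hT, div_le_iff₀ hK0, mul_comm _ K]
          exact (mul_le_mul_of_nonneg_right hc3a hδ0).trans h3
    have hsum : T ≤ S.sig st mv (n + 1) D x y := by
      have h1 : ∑ _k : Fin 3 × Bool, 1 / 6 * T ≤ S.sig st mv (n + 1) D x y := by
        refine Finset.sum_le_sum fun k _ => mul_le_mul_of_nonneg_left (key k) (by norm_num)
      rw [Finset.sum_const, Finset.card_univ] at h1
      have h2 : Fintype.card (Fin 3 × Bool) = 6 := by simp
      rw [h2, nsmul_eq_mul] at h1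
      have h3 : ((6 : ℕ) : ℝ) * (1 / 6 * T) = T := by push_cast; ring
      rwa [h3] at h1
    rw [hT, div_le_iff₀ hK0, mul_comm _ K] at hsum
    exact hsum

end Vale.Agent.P235.LL.H958
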