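import Vale.Agent.P235.LL.Rows
import Vale.Agent.P235.H958.AllMove

/-! P235, LL (helper958): basic facts on `dto`, children and `sig`; the one-move lemma for `mass`. -/

namespace Vale.Agent.P235.LL.H958

open Vale.Agent.P235 Finset Vale.Agent.P235.H538 Vale.Agent.P235.H958

/-- `all_move` for the masses of `Dom` -/
theorem all_mass {Jm : ℕ} (hJ : 1 ≤ Jm) {T : ℝ} (F G : ℕ → ℝ)
    (hF : ∀ j < Jm, 0 ≤ F j) (hG : ∀ j < Jm, 0 ≤ G j) (ev : ℕ → Prop)
    (hcont : ∀ j < Jm, (∀ i ≤ j, ¬ ev i) → T ≤ G j)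
    (hev : ∀ j < Jm, ev j → (∀ i < j, ¬ ev i) → T ≤ F j ∨ T ≤ 1 / 16 * G j) :
    T ≤ ∑ j ∈ range Jm, ((15 / 16) ^ j * F j +
      (if j + 1 = Jm then (15 / 16) ^ j else 1 / 16 * (15 / 16) ^ j) * G j) := by
  have h := all_move hJ (T := T) (fun i => F (i - 1)) (fun i => G (i - 1))
    (fun j hj => hF _ (by rw [mem_Icc] at hj; omega))
    (fun j hj => hG _ (by rw [mem_Icc] at hj; omega)) (fun i => ev (i - 1))
    (fun j hj hi => hcont _ (by rw [mem_Icc] at hj; omega) fun i hij => by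
      rw [mem_Icc] at hj
      have := hi (i + 1) (mem_Icc.2 ⟨by omega, by omega⟩)
      simpa using this)
    (fun j hj he hi => by
      rw [mem_Icc] at hj
      have h1 := hev (j - 1) (by omega) he fun i hij => by
        have := hi (i + 1) (mem_Icc.2 ⟨by omega, by omega⟩) (by omega)
        simpa using this
      have e : (1 : ℝ) - qq = 1 / 16 := by unfold qq; norm_num
      rw [e]; exact h1)
  refine h.trans (le_of_eq ?_)
  have e1 : Icc 1 Jm = Ico (0 + 1) (Jm + 1) := by ext i; simp only [mem_Icc, mem_Ico]; omega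
  rw [e1, ← Finset.sum_Ico_add' _ 0 Jm 1, ← Finset.range_eq_Ico]
  refine Finset.sum_congr rfl fun j hj => ?_
  rw [mem_range] at hj
  simp only [Nat.add_sub_cancel, law, qq]
  by_cases h1 : j + 1 = Jm
  · rw [if_pos h1, if_neg (by omega)]
  · rw [if_neg h1, if_pos (by omega)]
    norm_num

variable {V : Type} {G : SimpleGraph V} {ℓ : Sym2 V → ℝ}

theorem dto_nonneg (hℓ : ∀ e ∈ G.edgeSet, 0 < ℓ e) (S : Set V) (x : V) : 0 ≤ dto G ℓ S x :=
  Real.iInf_nonneg fun _ => pathDist_nonneg hℓ _ _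

theorem dto_le (hℓ : ∀ e ∈ G.edgeSet, 0 < ℓ e) {S : Set V} {x b : V} (hb : b ∈ S) :
    dto G ℓ S x ≤ pathDist G ℓ x b :=
  ciInf_le (f := fun b : S => pathDist G ℓ x b)
    ⟨0, by rintro _ ⟨b, rfl⟩; exact pathDist_nonneg hℓ _ _⟩ ⟨b, hb⟩

theorem le_dto {S : Set V} {x : V} {r : ℝ} (hS : S.Nonempty)
    (h : ∀ b ∈ S, r ≤ pathDist G ℓ x b) : r ≤ dto G ℓ S x := by
  have : Nonempty S := hS.to_subtype
  exact le_ciInf fun b => h b b.2

theorem dto_self [Finite V] (hc : G.Connected) (hℓ : ∀ e ∈ G.edgeSet, 0 < ℓ e) {S : Set V} {x : V}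
    (hx : x ∈ S) : dto G ℓ S x = 0 :=
  le_antisymm ((dto_le hℓ hx).trans (le_of_eq ((pathDist_isMet hc hℓ).self x))) (dto_nonneg hℓ _ _)

theorem compSet_out {S : Set V} {x y : V} (h : y ∈ compSet G S x) : y ∉ S := ReachOff.right h

theorem self_mem_compSet {S : Set V} {x : V} (h : x ∉ S) : x ∈ compSet G S x := ReachOff.refl h

theorem compSet_congr {S : Set V} {x y : V} (h : y ∈ compSet G S x) :
    compSet G S y = compSet G S x := by
  ext z
  exact ⟨fun hz => ReachOff.trans h hz, fun hz => ReachOff.trans (ReachOff.symm h) hz⟩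

theorem compSet_adj {S : Set V} {x v y : V} (hv : v ∈ compSet G S x) (hy : y ∉ S)
    (h : G.Adj v y) : y ∈ compSet G S x :=
  ReachOff.trans hv (ReachOff.adj (ReachOff.right hv) hy h)

/-- the distance to the complement of the component is the distance to the removed set -/
theorem dto_comp [Finite V] (hc : G.Connected) (hℓ : ∀ e ∈ G.edgeSet, 0 < ℓ e) {S : Set V}
    (hS : S.Nonempty) {x : V} (hx : x ∉ S) : dto G ℓ (compSet G S x)ᶜ x = dto G ℓ S x := by
  have hsub : S ⊆ (compSet G S x)ᶜ := fun b hb h => compSet_out h hb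
  have hne : ((compSet G S x)ᶜ).Nonempty := hS.mono hsub
  apply le_antisymm
  · exact le_dto hS fun b hb => dto_le hℓ (hsub hb)
  · obtain ⟨z, hz, hmin⟩ := exists_nearest hc hℓ hne (u := x) (by
      rw [Set.mem_compl_iff, not_not]; exact self_mem_compSet hx)
    obtain ⟨hz1, v, hv, hvz⟩ := hz
    have hv' : v ∈ compSet G S x := by
      have := compSet_out hv
      rwa [Set.mem_compl_iff, not_not] at this
    have hzS : z ∈ S := by
      by_contra h
      exact hz1 (compSet_adj hv' h hvz)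
    exact le_dto hne fun b hb => (dto_le hℓ hzS).trans (hmin b hb)

theorem vis_zero (D : Dom V) (k : Fin 3 × Bool) : D.vis k 0 = D.Uᶜ := by
  ext v
  simp only [Dom.vis, Set.mem_ofPred_eq, Set.mem_compl_iff]
  constructor
  · intro h hv
    exact absurd (h hv).1 (by omega)
  · intro h hv
    exact absurd hv h

theorem compl_sub_vis (D : Dom V) (k : Fin 3 × Bool) (j : ℕ) : D.Uᶜ ⊆ D.vis k j :=
  fun _ hv hu => absurd hu hv

theorem mem_U_of_not_vis {D : Dom V} {k : Fin 3 × Bool} {j : ℕ} {x : V} (h : x ∉ D.vis k j) :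
    x ∈ D.U := by
  by_contra hu
  exact h (compl_sub_vis D k j hu)

theorem vis_nonempty {D : Dom V} (hD : IsDom G ℓ D) (k : Fin 3 × Bool) (j : ℕ) :
    (D.vis k j).Nonempty := by
  obtain ⟨b, hb⟩ := hD.out
  exact ⟨b, compl_sub_vis D k j hb⟩

/-- the number of steps is positive -/
theorem Jm_spec [Finite V] (D : Dom V) (k : Fin 3 × Bool) :
    1 ≤ D.Jm k ∧ ∀ v ∈ D.U, 0 < D.s k v → 1 ≤ 2 ^ D.Jm k * D.s k v := by
  have hne : {j : ℕ | 1 ≤ j ∧ ∀ v ∈ D.U, 0 < D.s k v → 1 ≤ 2 ^ j * D.s k v}.Nonempty := by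
    have h1 : ∀ v : V, ∀ᶠ j : ℕ in Filter.atTop, v ∈ D.U → 0 < D.s k v → 1 ≤ 2 ^ j * D.s k v := by
      intro v
      by_cases hs : 0 < D.s k v
      · have h2 : Filter.Tendsto (fun j : ℕ => (2 : ℝ) ^ j * D.s k v) Filter.atTop Filter.atTop :=
          (tendsto_pow_atTop_atTop_of_one_lt (by norm_num)).atTop_mul_const hs
        filter_upwards [h2.eventually_ge_atTop 1] with j hj _ _
        exact hj
      · exact Filter.Eventually.of_forall fun j _ h => absurd h hs
    have h3 := (Filter.eventually_all.2 h1).and (Filter.eventually_ge_atTop 1)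
    obtain ⟨j, hj, hj1⟩ := h3.exists
    exact ⟨j, hj1, fun v => hj v⟩
  exact Nat.sInf_mem hne

variable {K : ℝ}

theorem chS_spec {S : Sys G ℓ K} {D : Dom V} (hD : S.Good D) (k : Fin 3 × Bool) (j : ℕ) {x : V}
    (hx : x ∉ D.vis k (j + 1)) :
    S.Good (S.ch D k j x) ∧ (S.ch D k j x).U = compSet G (D.vis k (j + 1)) x ∧
      Link G D (S.ch D k j x) k (j + 1) := by
  classical
  have h := S.child D hD k j x hx
  unfold Sys.ch Sys.chS
  rw [dif_pos h]
  exact h.choose_spec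

theorem mem_comps [Finite V] {D : Dom V} {k : Fin 3 × Bool} {j : ℕ} {W : Set V} :
    W ∈ Sys.comps G D k j ↔ ∃ x, x ∉ D.vis k (j + 1) ∧ W = compSet G (D.vis k (j + 1)) x := by
  unfold Sys.comps
  rw [Set.Finite.mem_toFinset]; rfl

theorem good_chS [Finite V] {S : Sys G ℓ K} {D : Dom V} (hD : S.Good D) {k : Fin 3 × Bool} {j : ℕ}
    {W : Set V} (hW : W ∈ Sys.comps G D k j) :
    S.Good (S.chS D k j W) ∧ (S.chS D k j W).U = W := by
  obtain ⟨x, hx, rfl⟩ := mem_comps.1 hW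
  exact ⟨(chS_spec hD k j hx).1, (chS_spec hD k j hx).2.1⟩

/-- children are smaller -/
theorem card_lt [Finite V] {S : Sys G ℓ K} {D : Dom V} (hD : S.Good D) (k : Fin 3 × Bool) (j : ℕ)
    {x : V} (hx : x ∉ D.vis k (j + 1)) : (S.ch D k j x).U.ncard < D.U.ncard := by
  rw [(chS_spec hD k j hx).2.1]
  obtain ⟨v, hv, hs⟩ := (S.dom D hD).one k
  refine Set.ncard_lt_ncard ⟨fun y hy => mem_U_of_not_vis (compSet_out hy), fun h => ?_⟩
    (Set.toFinite _)
  refine compSet_out (h hv) fun _ => ⟨by omega, ?_⟩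
  rw [hs, mul_one]
  exact one_le_pow₀ (by norm_num)

theorem mass_nonneg (D : Dom V) (k : Fin 3 × Bool) (j : ℕ) : 0 ≤ D.mass k j := by
  unfold Dom.mass
  split_ifs <;> positivity

/-- `sig` is an `L₁` semimetric -/
theorem sig_l1 [Finite V] {S : Sys G ℓ K} {st mv : Dom V → Fin 3 × Bool → ℕ → V → V → ℝ}
    {C' C c c1 : ℝ} (hM : Maps G ℓ C' C c c1 S st mv) :
    ∀ n D, S.Good D → IsL1 (S.sig st mv n D) := by
  intro n
  induction n with
  | zero => intro D _; exact IsL1.zero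
  | succ n ih =>
    intro D hD
    refine IsL1.congr (F := fun a b => ∑ k, 1 / 6 * ∑ j ∈ range (D.Jm k),
      ((15 / 16) ^ j * st D k j a b + D.mass k j * (mv D k j a b +
        ∑ W ∈ Sys.comps G D k j, S.sig st mv n (S.chS D k j W) a b))) ?_ (fun x y => rfl)
    refine IsL1.sum _ (fun k a b => 1 / 6 * ∑ j ∈ range (D.Jm k),
      ((15 / 16) ^ j * st D k j a b + D.mass k j * (mv D k j a b +
        ∑ W ∈ Sys.comps G D k j, S.sig st mv n (S.chS D k j W) a b))) fun k _ => ?_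
    refine IsL1.smul (IsL1.sum _ (fun j a b => (15 / 16) ^ j * st D k j a b + D.mass k j *
      (mv D k j a b + ∑ W ∈ Sys.comps G D k j, S.sig st mv n (S.chS D k j W) a b))
      fun j _ => ?_) (by norm_num)
    refine IsL1.add (IsL1.smul (hM.st D hD k j).l1 (by positivity)) (IsL1.smul (IsL1.add
      (hM.mv D hD k j).l1 (IsL1.sum _ (fun W => S.sig st mv n (S.chS D k j W)) fun W hW => ?_))
      (mass_nonneg D k j))
    exact ih _ (good_chS hD hW).1

end Vale.Agent.P235.LL.H958
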